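import Vale.Agent.P040.H378.Defs

/-! closedness of the outcomes along a path (helper378) -/

set_option linter.unusedVariables false
set_option linter.unusedSectionVars false

namespace Vale.Agent.P040.H378

open Vale.Agent.P040.H906 P040H251 Finset Filter Topology

variable {W : Type*} [LinearOrder W]

theorem valid_closed {c : Cfg W} {Et : ℝ → W → ℝ} (hE : ∀ x, Continuous fun t => Et t x)
    (b : Bool) (x : W) : IsClosed {t : ℝ | c.Valid (Et t) (-(c.dl (Et t) b x))} := by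
  have hc : ∀ b x, Continuous fun t : ℝ => c.dl (Et t) b x := by
    intro b x
    unfold Cfg.dl
    exact continuous_const.mul ((hE _).sub (hE _))
  have : {t : ℝ | c.Valid (Et t) (-(c.dl (Et t) b x))} =
      ⋂ (b' : Bool) (T : Finset W) (_ : T ⊆ c.S) (_ : PD (c.f b') T),
        {t : ℝ | ∑ y ∈ T, (-(c.dl (Et t) b x) + c.dl (Et t) b' y) ≤
          2 * -(c.dl (Et t) b x)} := by
    ext t
    simp only [Set.mem_iInter]
    exact Iff.rfl
  rw [this]
  refine isClosed_iInter fun b' => isClosed_iInter fun T => isClosed_iInter fun _ =>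
    isClosed_iInter fun _ => ?_
  refine isClosed_le ?_ ?_
  · exact continuous_finsetSum _ fun y _ => ((hc b x).neg.add (hc b' y))
  · exact continuous_const.mul (hc b x).neg

theorem freq_finset {ι : Type*} {l : Filter ℝ} (s : Finset ι) (P : ι → ℝ → Prop)
    (h : ∃ᶠ t in l, ∃ i ∈ s, P i t) : ∃ i ∈ s, ∃ᶠ t in l, P i t := by
  by_contra hn
  push Not at hn
  apply h
  have : ∀ᶠ t in l, ∀ i ∈ s, ¬ P i t := (Filter.eventually_all_finset s).2 (fun i hi => by
    have := hn i hi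
    simpa using this)
  filter_upwards [this] with t ht
  push Not
  exact ht

/-- decompose an outcome into its first step -/
theorem out_cases {E : W → ℝ} {col : W → Bool} {c : Cfg W} {a : W} (hc : 2 < c.S.card)
    (h : Out E col c a) : ∃ i ∈ (Finset.univ : Finset Bool) ×ˢ c.S, c.Leaf i.1 i.2 ∧
      c.Valid E (-(c.dl E i.1 i.2)) ∧ Out E col (c.del i.1 i.2) a := by
  cases h with
  | base h1 => omega
  | @step _ b x _ h1 h2 h3 h4 => exact ⟨(b, x), by simp [h2.1], h2, h3, h4⟩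

theorem mem_of_freq {l : Filter ℝ} {t0 : ℝ} (hl : l ≤ 𝓝 t0) {s : Set ℝ} (hs : IsClosed s)
    (h : ∃ᶠ t in l, t ∈ s) : t0 ∈ s := by
  have : ∃ᶠ t in 𝓝 t0, t ∈ s := h.filter_mono hl
  exact hs.mem_of_frequently_of_tendsto this tendsto_id

theorem freq_step {col : W → Bool} {Et : ℝ → W → ℝ}
    (hE : ∀ x, Continuous fun t => Et t x) {t0 : ℝ} {l : Filter ℝ} (hl : l ≤ 𝓝 t0) {a : W}
    {c : Cfg W} (hc : 2 < c.S.card) (P : ℝ → Prop)
    (h : ∃ᶠ t in l, Out (Et t) col c a ∧ P t) : ∃ b x, c.Leaf b x ∧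
      c.Valid (Et t0) (-(c.dl (Et t0) b x)) ∧
      ∃ᶠ t in l, c.Valid (Et t) (-(c.dl (Et t) b x)) ∧ Out (Et t) col (c.del b x) a ∧ P t := by
  have h1 : ∃ᶠ t in l, ∃ i ∈ (Finset.univ : Finset Bool) ×ˢ c.S, c.Leaf i.1 i.2 ∧
      c.Valid (Et t) (-(c.dl (Et t) i.1 i.2)) ∧ Out (Et t) col (c.del i.1 i.2) a ∧ P t := by
    refine h.mono fun t ht => ?_
    obtain ⟨i, hi, h2, h3, h4⟩ := out_cases hc ht.1
    exact ⟨i, hi, h2, h3, h4, ht.2⟩
  obtain ⟨⟨b, x⟩, hi, h2⟩ := freq_finset _ _ h1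
  obtain ⟨t, ht⟩ := h2.exists
  refine ⟨b, x, ht.1, ?_, h2.mono fun t ht => ht.2⟩
  exact mem_of_freq hl (valid_closed hE b x) (h2.mono fun t ht => ht.2.1)

theorem out_closed {col : W → Bool} {Et : ℝ → W → ℝ}
    (hE : ∀ x, Continuous fun t => Et t x) {t0 : ℝ} {l : Filter ℝ} (hl : l ≤ 𝓝 t0) {a : W} :
    ∀ (n : ℕ) (c : Cfg W), c.S.card = n → c.Good → (∃ᶠ t in l, Out (Et t) col c a) →
      Out (Et t0) col c a := by
  intro n
  induction n using Nat.strong_induction_on with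
  | _ n ih =>
    intro c hn hg h
    rcases Nat.lt_or_ge 2 c.S.card with hc | hc
    · obtain ⟨b, x, h1, h2, h3⟩ := freq_step (col := col) hE hl (a := a) hc (fun _ => True)
        (h.mono fun t ht => ⟨ht, trivial⟩)
      have hcard := Cfg.card_del hg h1.1 (b := b)
      exact Out.step hc h1 h2 (ih _ (by omega) _ rfl (Cfg.good_del hg hc h1)
        (h3.mono fun t ht => ht.2.1))
    · obtain ⟨t, ht⟩ := h.exists
      cases ht with
      | base h1 h2 h3 => exact Out.base h1 h2 h3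
      | step h1 => omega

end Vale.Agent.P040.H378
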