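import Vale.Agent.P040.H251.SelInst

/-!
P040, both m and n odd (helper378): definitions for the tripod lemma.

`c` is a closed meander (points on the circle `L_0`, chords of the two pages), `col` its colouring,
the closed curve is oriented so that it leaves a point `x` along the chord of page `col x`.
There are three marks on the curve (labels `0, 1, 2` of the arcs between the marks, `tau` = position
along the curve, cut at the mark between the arcs `2` and `0`) and one mark `w` on the circle.
-/

set_option linter.unusedVariables false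
set_option linter.unusedSectionVars false

namespace Vale.Agent.P040.H378

open Vale.Agent.P040.H906 P040H251 Finset

variable {W : Type*} [LinearOrder W]

/-- validity with a uniform slack `k` -/
def SValid (c : Cfg W) (E : W → ℝ) (M k : ℝ) : Prop :=
  ∀ b, ∀ T ⊆ c.S, PD (c.f b) T → ∑ x ∈ T, (M + c.dl E b x) + k ≤ 2 * M

/-- number of marks on the curve when going forward from `x` to `y` (`x ≠ y`) -/
def Kn (tau lab : W → ℕ) (x y : W) : ℤ :=
  (lab y : ℤ) - lab x + (if tau y < tau x then 3 else 0)

/-- number of marks on the chord of page `b` at `x` -/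
def Kc (c : Cfg W) (col : W → Bool) (tau lab : W → ℕ) (b : Bool) (x : W) : ℤ :=
  if col x = b then Kn tau lab x (c.f b x) else Kn tau lab (c.f b x) x

open Classical in
/-- indicator of the mark `w` of the circle on the forward arc from `x` to `y` -/
noncomputable def wi (w x y : W) : ℤ := if Cyc x w y then 1 else 0

/-- The three marks on the curve, the mark on the circle, and the parity law of the masses. -/
structure Marked (c : Cfg W) (col : W → Bool) (E : W → ℝ) (M : ℝ) (w : W) (tau lab : W → ℕ) :
    Prop where
  wS : w ∉ c.S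
  inj : ∀ x ∈ c.S, ∀ y ∈ c.S, tau x = tau y → x = y
  lt3 : ∀ x ∈ c.S, lab x < 3
  mono : ∀ x ∈ c.S, ∀ y ∈ c.S, tau x ≤ tau y → lab x ≤ lab y
  /-- the curve goes from `x` along the chord of page `col x` to the next point -/
  succ : ∀ x ∈ c.S, ∀ z ∈ c.S, ¬ Cyc (tau x) (tau z) (tau (c.f (col x) x))
  odd : ∃ j : ℤ, 2 * M = 2 * j + 1
  par : ∀ b, ∀ x ∈ c.S, ∃ j : ℤ,
    M + c.dl E b x = Kc c col tau lab b x + wi w x (c.f b x) + 2 * j

/-- reachable by deleting leaves (of any mass) -/
inductive Reach : Cfg W → Cfg W → Prop
  | refl (c : Cfg W) : Reach c c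
  | step {c c' : Cfg W} {b : Bool} {x : W} : 2 < c.S.card → c.Leaf b x →
      Reach (c.del b x) c' → Reach c c'

/-- the only coincidence between the values of `|E p - E q|` (`p` of colour `true`, `q` of colour
`false`) comes from `E a = E a'` -/
def GenAt (c : Cfg W) (col : W → Bool) (E : W → ℝ) (a a' : W) : Prop :=
  ∀ p ∈ c.S, ∀ p' ∈ c.S, ∀ q ∈ c.S, ∀ q' ∈ c.S, col p = true → col p' = true → col q = false →
    col q' = false → |E p - E q| = |E p' - E q'| →
    q = q' ∧ (p = p' ∨ (p = a ∧ p' = a') ∨ (p = a' ∧ p' = a))

/-- the wall path between the labels `i` and `i + 1` -/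
noncomputable def hh (i : ℕ) (β t : ℝ) (l : ℕ) : ℝ :=
  if l = i then 1 / 2 - t / 2 else if l = (i + 1) % 3 then t / 2 else β

end Vale.Agent.P040.H378
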