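import Vale.Agent.P040.H378.Closed

/-! forced descent to a gate at a simple tie (helper378) -/

set_option linter.unusedVariables false
set_option linter.unusedSectionVars false

namespace Vale.Agent.P040.H378

open Vale.Agent.P040.H906 P040H251 Finset Filter Topology

variable {W : Type*} [LinearOrder W]

theorem GenAt.del {c : Cfg W} {col : W → Bool} {E : W → ℝ} {a a' : W}
    (h : GenAt c col E a a') (b : Bool) (x : W) : GenAt (c.del b x) col E a a' := by
  intro p hp p' hp' q hq q' hq'
  exact h p (Cfg.mem_del.1 hp).2.2 p' (Cfg.mem_del.1 hp').2.2 q (Cfg.mem_del.1 hq).2.2 q'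
    (Cfg.mem_del.1 hq').2.2

theorem abs_dl {c : Cfg W} {E : W → ℝ} {b : Bool} {x : W} :
    |c.dl E b x| = |E (c.f b x) - E x| := by
  unfold Cfg.dl
  rw [abs_mul]
  have : |sg b| = 1 := by cases b <;> simp [sg]
  rw [this, one_mul]

/-- two endpoints of a chord: the one of colour `true` and the one of colour `false` -/
theorem ends {c : Cfg W} {col : W → Bool} (hcol : ColOK col c) (hg : c.Good) {b : Bool} {x : W}
    (hx : x ∈ c.S) : ∃ p q, p ∈ c.S ∧ q ∈ c.S ∧ col p = true ∧ col q = false ∧
      ((x = p ∧ c.f b x = q) ∨ (x = q ∧ c.f b x = p)) := by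
  have h1 := hcol b x hx
  have h2 := hg.mem b x hx
  cases h : col x
  · exact ⟨c.f b x, x, h2, hx, by rw [h1, h]; rfl, h, Or.inr ⟨rfl, rfl⟩⟩
  · exact ⟨x, c.f b x, hx, h2, h, by rw [h1, h]; rfl, Or.inl ⟨rfl, rfl⟩⟩

theorem card_two_ne {c : Cfg W} {col : W → Bool} (hg : c.Good) (hcol : ColOK col c)
    (hc : c.S.card = 2) {a a' : W} (ha : a ∈ c.S) (ha' : a' ∈ c.S) (h1 : col a = true)
    (h2 : col a' = true) : a = a' := by
  by_contra haa
  have hS : ({a, a'} : Finset W) = c.S := by
    apply Finset.eq_of_subset_of_card_le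
    · intro y hy; simp at hy; rcases hy with rfl | rfl <;> assumption
    · rw [hc, Finset.card_pair haa]
  have hm := hg.mem true a ha
  have hn := hg.ne true a ha
  rw [← hS] at hm
  simp at hm
  rcases hm with hm | hm
  · exact hn hm
  · have := hcol true a ha
    rw [hm, h1, h2] at this
    simp at this

/-- both orientations of a chord cannot be leaves -/
theorem leaf_two {c : Cfg W} (hg : c.Good) (hc : 2 < c.S.card) {b b' : Bool} {x : W}
    (h1 : c.Leaf b x) (h2 : c.Leaf b' (c.f b x)) (h3 : c.f b' (c.f b x) = x) : False := by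
  have hx := h1.1
  have hn := hg.ne b x hx
  have : ({x, c.f b x} : Finset W) = c.S := by
    apply Finset.Subset.antisymm
    · intro y hy; simp at hy; rcases hy with rfl | rfl
      · exact hx
      · exact hg.mem b x hx
    · intro z hz
      by_contra hz'
      simp at hz'
      have h4 := h1.2 z hz
      have h5 := h2.2 z hz
      rw [h3] at h5
      unfold Cyc at *
      grind
  rw [← this] at hc
  have := Finset.card_le_two (a := x) (b := c.f b x)
  omega

theorem descent {col : W → Bool} {Et : ℝ → W → ℝ}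
    (hE : ∀ x, Continuous fun t => Et t x) {t0 : ℝ} {l : Filter ℝ} (hl : l ≤ 𝓝 t0) {a a' : W}
    (haa : a ≠ a') (P : ℝ → Prop) :
    ∀ (n : ℕ) (c : Cfg W), c.S.card = n → c.Good → ColOK col c → GenAt c col (Et t0) a a' →
      Out (Et t0) col c a → (∃ᶠ t in l, Out (Et t) col c a' ∧ P t) →
      ∃ (c' : Cfg W) (b : Bool) (x : W), Reach c c' ∧ c'.Good ∧ ColOK col c' ∧ 2 < c'.S.card ∧
        col x = true ∧ c'.Leaf b x ∧ c'.Leaf (!b) (c'.f b x) ∧
        ((x = a ∧ c'.f (!b) (c'.f b x) = a') ∨ (x = a' ∧ c'.f (!b) (c'.f b x) = a)) ∧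
        ∃ᶠ t in l, (b = true → Et t a' ≤ Et t a) ∧ (b = false → Et t a ≤ Et t a') ∧ P t := by
  intro n
  induction n using Nat.strong_induction_on with
  | _ n ih =>
    intro c hn hg hcol hgen ho hf
    obtain ⟨t1, ht1⟩ := hf.exists
    have haS := ho.mem
    have ha'S := ht1.1.mem
    have hca := ho.col
    have hca' := ht1.1.col
    have h2le := two_le hg
    rcases Nat.lt_or_ge 2 c.S.card with hc | hc
    swap
    · exact absurd (card_two_ne hg hcol (by omega) haS ha'S hca hca') haa
    obtain ⟨⟨b, x⟩, -, hL, hV, hO⟩ := out_cases hc ho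
    simp only at hL hV hO
    obtain ⟨b', x', hL', hV', hf'⟩ := freq_step hE hl hc P hf
    have hx := hL.1
    have hx' := hL'.1
    -- equal masses at `t0`
    have hMM : c.dl (Et t0) b x = c.dl (Et t0) b' x' := by
      have e1 := hV.ge hg hx' (b := b')
      have e2 := hV'.ge hg hx (b := b)
      linarith
    obtain ⟨p, q, hp, hq, hcp, hcq, hpq⟩ := ends hcol hg (b := b) hx
    obtain ⟨p', q', hp', hq', hcp', hcq', hpq'⟩ := ends hcol hg (b := b') hx'
    have habs : |Et t0 p - Et t0 q| = |Et t0 p' - Et t0 q'| := by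
      have h1 : |Et t0 p - Et t0 q| = |c.dl (Et t0) b x| := by
        rw [abs_dl]
        rcases hpq with ⟨h1, h2⟩ | ⟨h1, h2⟩
        · rw [h2, h1, abs_sub_comm]
        · rw [h2, h1]
      have h2 : |Et t0 p' - Et t0 q'| = |c.dl (Et t0) b' x'| := by
        rw [abs_dl]
        rcases hpq' with ⟨h1, h2⟩ | ⟨h1, h2⟩
        · rw [h2, h1, abs_sub_comm]
        · rw [h2, h1]
      rw [h1, h2, hMM]
    obtain ⟨hqq, hpp⟩ := hgen p hp p' hp' q hq q' hq' hcp hcp' hcq hcq' habs
    subst hqq
    -- `a` is not on the first leaf, `a'` not on the second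
    have ha1 := Cfg.mem_del.1 hO.mem
    obtain ⟨t2, ht2⟩ := hf'.exists
    have ha2 := Cfg.mem_del.1 ht2.2.1.mem
    have hpa : p ≠ a := by
      rintro rfl
      rcases hpq with ⟨h1, h2⟩ | ⟨h1, h2⟩
      · exact ha1.2.1 h1.symm
      · exact ha1.1 h2.symm
    have hpa' : p' ≠ a' := by
      rintro rfl
      rcases hpq' with ⟨h1, h2⟩ | ⟨h1, h2⟩
      · exact ha2.2.1 h1.symm
      · exact ha2.1 h2.symm
    have hpq0 : p ≠ q := by rintro rfl; rw [hcp] at hcq; simp at hcq
    have hp'q0 : p' ≠ q := by rintro rfl; rw [hcp'] at hcq; simp at hcq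
    rcases hpp with hpp | ⟨hpp, -⟩ | ⟨hpp, hpp'⟩
    · -- the same leaf
      subst hpp
      have hbb : b' = b := by
        by_contra hne
        have hb : b' = !b := by rcases Cfg.bool_cases b b' with h | h; exact absurd h hne; exact h
        subst hb
        have hno := hg.ne_other hc b hx
        rcases hpq with ⟨h1, h2⟩ | ⟨h1, h2⟩ <;> rcases hpq' with ⟨h3, h4⟩ | ⟨h3, h4⟩
        · rw [h3, ← h1] at h4; exact hno (h4.trans h2.symm)
        · have := hg.inv (!b) x' hx'
          rw [h4, h3, ← h1] at this; exact hno (this.trans h2.symm)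
        · have := hg.inv (!b) x' hx'
          rw [h4, h3, ← h1] at this; exact hno (this.trans h2.symm)
        · rw [h3, ← h1] at h4; exact hno (h4.trans h2.symm)
      subst hbb
      have hxx : x' = x := by
        rcases hpq with ⟨h1, h2⟩ | ⟨h1, h2⟩ <;> rcases hpq' with ⟨h3, h4⟩ | ⟨h3, h4⟩
        · rw [h3, h1]
        · exfalso
          have e : x' = c.f b' x := by rw [h3, h2]
          exact leaf_two hg hc hL (by rw [← e]; exact hL') (hg.inv _ _ hx)
        · exfalso
          have e : x' = c.f b' x := by rw [h3, h2]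
          exact leaf_two hg hc hL (by rw [← e]; exact hL') (hg.inv _ _ hx)
        · rw [h3, h1]
      subst hxx
      have hcard := Cfg.card_del hg hx' (b := b')
      obtain ⟨c', b1, x1, r1, r2, r3, r4, r5, r6, r7, r8, r9⟩ :=
        ih _ (by omega) (c.del b' x') rfl (Cfg.good_del hg hc hL) (hcol.del hg b' hx')
          (hgen.del b' x') hO (hf'.mono fun t ht => ht.2)
      exact ⟨c', b1, x1, Reach.step hc hL r1, r2, r3, r4, r5, r6, r7, r8, r9⟩
    · exact absurd hpp hpa
    · -- the gate
      subst hpp
      subst hpp'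
      have hbb : b' = !b := by
        rcases Cfg.bool_cases b b' with h | h
        · exfalso
          subst h
          have e1 : c.f b' q = p := by
            rcases hpq with ⟨h1, h2⟩ | ⟨h1, h2⟩
            · rw [← h2, hg.inv _ _ hx, h1]
            · rw [← h1, h2]
          have e2 : c.f b' q = p' := by
            rcases hpq' with ⟨h1, h2⟩ | ⟨h1, h2⟩
            · rw [← h2, hg.inv _ _ hx', h1]
            · rw [← h1, h2]
          exact haa (e2.symm.trans e1)
        · exact h
      subst hbb
      have key : ∀ t, c.Valid (Et t) (-(c.dl (Et t) (!b) x')) →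
          c.dl (Et t) (!b) x' ≤ c.dl (Et t) b x := by
        intro t ht
        have := ht.ge hg hx (b := b)
        linarith
      rcases hpq with ⟨h1, h2⟩ | ⟨h1, h2⟩ <;> rcases hpq' with ⟨h3, h4⟩ | ⟨h3, h4⟩
      · -- both before `q`
        exfalso
        have l1 := hL.2 x' hx'
        have l2 := hL'.2 x hx
        rw [h2] at l1
        rw [h4] at l2
        rw [h1] at l1 l2
        rw [h3] at l1 l2
        unfold Cyc at l1 l2
        grind
      · refine ⟨c, b, x, Reach.refl c, hg, hcol, hc, by rw [h1]; exact hcp, hL, ?_, ?_, ?_⟩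
        · rw [h2, ← h3]; exact hL'
        · right; exact ⟨h1, by rw [h2, ← h3, h4]⟩
        · refine hf'.mono fun t ht => ?_
          have k := key t ht.1
          unfold Cfg.dl at k
          rw [h2, h1, h4, h3, sg_not] at k
          refine ⟨?_, ?_, ht.2.2⟩
          · intro hb; subst hb; simp [sg] at k; linarith
          · intro hb; subst hb; simp [sg] at k; linarith
      · refine ⟨c, !b, x', Reach.refl c, hg, hcol, hc, by rw [h3]; exact hcp', hL', ?_, ?_, ?_⟩
        · rw [h4, ← h1, Bool.not_not]; exact hL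
        · left; exact ⟨h3, by rw [h4, ← h1, Bool.not_not, h2]⟩
        · refine hf'.mono fun t ht => ?_
          have k := key t ht.1
          unfold Cfg.dl at k
          rw [h2, h1, h4, h3, sg_not] at k
          refine ⟨?_, ?_, ht.2.2⟩
          · intro hb
            have : b = false := by cases b <;> simp_all
            subst this; simp [sg] at k; linarith
          · intro hb
            have : b = true := by cases b <;> simp_all
            subst this; simp [sg] at k; linarith
      · -- both after `q`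
        exfalso
        have l1 := hL.2 x' hx'
        have l2 := hL'.2 x hx
        rw [h2, h1] at l1
        rw [h4, h3] at l2
        have l3 := hL.2 p' (hg.mem _ _ hx' |> fun h => by rw [← h4]; exact h)
        have l4 := hL'.2 p (hg.mem _ _ hx |> fun h => by rw [← h2]; exact h)
        rw [h2, h1] at l3
        rw [h4, h3] at l4
        unfold Cyc at l3 l4
        grind

end Vale.Agent.P040.H378
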